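import Vale.Agent.P236.Cob

/-!
# P236: products of `b_0` and `h_0` are not coboundaries in the cobar complex of `P_*` (`p = 3`)

The words `[x|y]` are sent to matrices over `F_3`: `[x] ↦ (0, φ_1 x; φ_2 x, 0)`, where `φ_k` is the
coefficient of `ξ_1^k`.  This kills the image of the differential of the cobar complex (it is a
twisting cochain), and it does not kill `h_0 b_0^n` and `b_0^n`.
-/

namespace Vale.Agent.P236.H361

open TensorProduct

/-- coefficient of `ξ_1^k` -/
noncomputable def phi (k : ℕ) : PS →ₗ[ZMod 3] ZMod 3 :=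
  MvPolynomial.lcoeff (ZMod 3) (Finsupp.single 0 k)

/-- polynomials in `y` over polynomials in `x` -/
abbrev R2 := Polynomial (Polynomial (ZMod 3))

/-- `ξ_1 ↦ X`, other generators to `0` -/
noncomputable def rho : PS →ₐ[ZMod 3] Polynomial (ZMod 3) :=
  MvPolynomial.aeval fun n => if n = 0 then Polynomial.X else 0

theorem rho_coeff (f : PS) (k : ℕ) : (rho f).coeff k = phi k f := by
  classical
  induction f using MvPolynomial.induction_on' with
  | monomial m a =>
    simp only [phi, MvPolynomial.lcoeff_apply, MvPolynomial.coeff_monomial]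
    rw [rho, MvPolynomial.aeval_monomial]
    by_cases hm : m = Finsupp.single 0 (m 0)
    · rw [hm]
      rw [Finsupp.prod_single_index (by simp)]
      simp only [if_true, Finsupp.single_eq_same]
      rw [← Polynomial.C_eq_algebraMap, Polynomial.coeff_C_mul, Polynomial.coeff_X_pow]
      by_cases hk : k = m 0
      · subst hk; simp
      · have : ¬ (Finsupp.single 0 (m 0) = (Finsupp.single 0 k : ℕ →₀ ℕ)) := by
          intro h; apply hk
          have := congrArg (fun g => g 0) h
          simpa using this.symm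
        simp [hk, this]
    · have h1 : ∃ i, i ≠ 0 ∧ m i ≠ 0 := by
        by_contra hcon
        push Not at hcon
        apply hm
        ext i
        by_cases hi : i = 0
        · subst hi; simp
        · rw [hcon i hi]; simp [Finsupp.single_apply, Ne.symm hi]
      obtain ⟨i, hi, hmi⟩ := h1
      have hz : (m.prod fun n e => (if n = 0 then (Polynomial.X : Polynomial (ZMod 3)) else 0) ^ e) = 0 := by
        apply Finset.prod_eq_zero (i := i) (by simpa using hmi)
        simp [hi, hmi]
      have hne : ¬ (m = Finsupp.single 0 k) := by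
        intro h; rw [h] at hmi; simp [Finsupp.single_apply, Ne.symm hi] at hmi
      rw [hz]; simp [hne]
  | add p q hp hq => simp [map_add, hp, hq]

/-- `f ⊗ g ↦ f(x) g(y)` -/
noncomputable def mu : PS ⊗[ZMod 3] PS →ₐ[ZMod 3] R2 :=
  Algebra.TensorProduct.lift
    ((Polynomial.CAlgHom (R := ZMod 3) (A := Polynomial (ZMod 3))).comp rho)
    ((Polynomial.mapAlgHom (Algebra.ofId (ZMod 3) (Polynomial (ZMod 3)))).comp rho)
    (fun _ _ => Commute.all _ _)

theorem mu_tmul (f g : PS) :
    mu (f ⊗ₜ g) = Polynomial.C (rho f) * (rho g).map (algebraMap (ZMod 3) (Polynomial (ZMod 3))) := by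
  simp [mu, Polynomial.mapAlgHom]

theorem mu_coeff (t : PS ⊗[ZMod 3] PS) (a b : ℕ) :
    ((mu t).coeff b).coeff a = LinearMap.mul' (ZMod 3) (ZMod 3) (TensorProduct.map (phi a) (phi b) t) := by
  induction t using TensorProduct.induction_on with
  | zero => simp
  | tmul f g =>
    rw [mu_tmul, Polynomial.coeff_C_mul, Polynomial.coeff_map, ← Polynomial.C_eq_algebraMap,
      Polynomial.coeff_mul_C, rho_coeff, rho_coeff]
    simp
  | add s t hs ht => simp [map_add, hs, ht]

noncomputable abbrev xx : R2 := Polynomial.C Polynomial.X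
noncomputable abbrev yy : R2 := Polynomial.X

/-- the shape `α + β(x+y) + γ(x+y)^2` modulo `(x^3, y^3)` -/
def Inv (F : R2) : Prop :=
  ∃ (α β γ : ZMod 3) (p q : R2), F = Polynomial.C (Polynomial.C α)
    + Polynomial.C (Polynomial.C β) * (xx + yy)
    + Polynomial.C (Polynomial.C γ) * (xx + yy) ^ 2 + xx ^ 3 * p + yy ^ 3 * q

theorem Inv.add {F G : R2} (hF : Inv F) (hG : Inv G) : Inv (F + G) := by
  obtain ⟨a, b, c, p, q, rfl⟩ := hF
  obtain ⟨a', b', c', p', q', rfl⟩ := hG
  exact ⟨a + a', b + b', c + c', p + p', q + q', by simp only [map_add]; ring⟩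

theorem Inv.mul_add {F : R2} (hF : Inv F) : Inv (F * (xx + yy)) := by
  obtain ⟨a, b, c, p, q, rfl⟩ := hF
  have h3 : (xx + yy) ^ 3 = xx ^ 3 + yy ^ 3 := add_pow_char (R := R2) xx yy 3
  refine ⟨0, a, b, p * (xx + yy) + Polynomial.C (Polynomial.C c),
    q * (xx + yy) + Polynomial.C (Polynomial.C c), ?_⟩
  have : Polynomial.C (Polynomial.C c) * (xx + yy) ^ 2 * (xx + yy)
      = Polynomial.C (Polynomial.C c) * (xx ^ 3 + yy ^ 3) := by rw [← h3]; ring
  simp only [map_zero]
  linear_combination this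

theorem Inv.mul_ideal {F : R2} (G H : R2) : Inv (F * (xx ^ 3 * G + yy ^ 3 * H)) :=
  ⟨0, 0, 0, F * G, F * H, by simp only [map_zero]; ring⟩

theorem Inv.coeff {F : R2} (hF : Inv F) : (F.coeff 2).coeff 1 = 0 ∧ (F.coeff 1).coeff 2 = 0 := by
  obtain ⟨a, b, c, p, q, rfl⟩ := hF
  have e2 : (xx + yy) ^ 2 = Polynomial.C (Polynomial.X ^ 2) + Polynomial.C (2 * Polynomial.X) * Polynomial.X
      + Polynomial.X ^ 2 := by
    simp only [xx, yy, map_pow, map_mul, map_ofNat]; ring
  have e3 : xx ^ 3 = Polynomial.C (Polynomial.X ^ 3) := by simp only [xx, map_pow]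
  rw [e2, e3]
  simp only [xx, yy, mul_add, Polynomial.coeff_add, Polynomial.coeff_C_mul, Polynomial.coeff_C, Polynomial.coeff_X,
    Polynomial.coeff_X_pow_mul', Polynomial.coeff_X_pow, ← Polynomial.C_mul, ← mul_assoc]
  constructor
  · norm_num [Polynomial.coeff_X_pow_mul', Polynomial.coeff_C, Polynomial.coeff_one]
  · norm_num [Polynomial.coeff_X_pow_mul', Polynomial.coeff_C, Polynomial.coeff_one,
      Polynomial.coeff_X, mul_assoc]

theorem rho_xi (n : ℕ) : rho (xi n) = if n = 0 then 1 else if n = 1 then Polynomial.X else 0 := by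
  rcases n with _ | _ | n
  · simp [xi]
  · simp [xi, rho]
  · simp [xi, rho]

theorem inv_mu_Delta (f : PS) : Inv (mu (ΔP f)) := by
  induction f using MvPolynomial.induction_on with
  | C a =>
    refine ⟨a, 0, 0, 0, 0, ?_⟩
    have : (MvPolynomial.C a : PS) = algebraMap (ZMod 3) PS a := rfl
    rw [this, AlgHom.commutes, AlgHom.commutes]
    simp
  | add p q hp hq => rw [map_add, map_add]; exact hp.add hq
  | mul_X p n hp =>
    rw [map_mul, map_mul]
    have hX : mu (ΔP (MvPolynomial.X n)) =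
        if n = 0 then xx + yy else if n = 1 then xx ^ 3 * yy + yy ^ 3 * 0 else 0 := by
      rw [ΔP, MvPolynomial.aeval_X]
      simp only [map_sum, mu_tmul, map_pow, rho_xi]
      rcases n with _ | _ | n
      · simp [xx, yy, Finset.sum_range_succ]
      · simp [xx, yy, Finset.sum_range_succ]
      · rw [if_neg (by omega), if_neg (by omega)]
        apply Finset.sum_eq_zero
        intro i hi
        rcases Nat.lt_or_ge i 2 with h0 | h0
        · have h1 : ¬ (n + 1 + 1 + 1 - i = 0) := by omega
          have h2 : ¬ (n + 1 + 1 + 1 - i = 1) := by omega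
          simp [h1, h2]
        · have h1 : ¬ i = 0 := by omega
          have h2 : ¬ i = 1 := by omega
          simp [h1, h2]
    rw [hX]
    rcases n with _ | _ | n
    · simpa using hp.mul_add
    · simpa using Inv.mul_ideal (F := mu (ΔP p)) yy 0
    · simp only [Nat.succ_ne_zero, if_false]
      rw [if_neg (by omega), mul_zero]
      exact ⟨0, 0, 0, 0, 0, by simp⟩

theorem phi_Delta (f : PS) :
    LinearMap.mul' (ZMod 3) (ZMod 3) (TensorProduct.map (phi 1) (phi 2) (ΔP f)) = 0 ∧
    LinearMap.mul' (ZMod 3) (ZMod 3) (TensorProduct.map (phi 2) (phi 1) (ΔP f)) = 0 := by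
  rw [← mu_coeff, ← mu_coeff]
  exact (inv_mu_Delta f).coeff

/-! ### the matrix evaluation -/

/-- `[x] ↦ (0, φ_1 x; φ_2 x, 0)` -/
noncomputable def evM : TensorAlgebra (ZMod 3) PS →ₐ[ZMod 3] Matrix (Fin 2) (Fin 2) (ZMod 3) :=
  TensorAlgebra.lift (ZMod 3)
    { toFun := fun x => !![0, phi 1 x; phi 2 x, 0]
      map_add' := by
        intro x y
        ext i j
        fin_cases i <;> fin_cases j <;> simp
      map_smul' := by
        intro c x
        ext i j
        fin_cases i <;> fin_cases j <;> simp }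

theorem evM_ι (x : PS) :
    evM (TensorAlgebra.ι (ZMod 3) x) = !![0, phi 1 x; phi 2 x, 0] := by
  simp [evM]

theorem evM_two (t : PS ⊗[ZMod 3] PS) :
    evM (two (ZMod 3) PS t) =
      !![LinearMap.mul' (ZMod 3) (ZMod 3) (TensorProduct.map (phi 1) (phi 2) t), 0;
         0, LinearMap.mul' (ZMod 3) (ZMod 3) (TensorProduct.map (phi 2) (phi 1) t)] := by
  induction t using TensorProduct.induction_on with
  | zero => ext i j; fin_cases i <;> fin_cases j <;> simp
  | tmul f g =>
    rw [two_tmul, map_mul, evM_ι, evM_ι]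
    ext i j
    fin_cases i <;> fin_cases j <;> simp [Matrix.mul_apply, Fin.sum_univ_two]
  | add s t hs ht =>
    rw [map_add, map_add, hs, ht]
    ext i j
    fin_cases i <;> fin_cases j <;> simp

theorem phi_one (k : ℕ) (hk : k ≠ 0) : phi k (1 : PS) = 0 := by
  rw [← rho_coeff, map_one, Polynomial.coeff_one, if_neg hk]

theorem phi_xi_pow (k m : ℕ) : phi k (xi 1 ^ m) = if k = m then 1 else 0 := by
  rw [← rho_coeff, map_pow, rho_xi]
  simp [Polynomial.coeff_X_pow]

theorem evM_ι_one : evM (TensorAlgebra.ι (ZMod 3) (1 : PS)) = 0 := by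
  rw [evM_ι, phi_one 1 (by norm_num), phi_one 2 (by norm_num)]
  ext i j
  fin_cases i <;> fin_cases j <;> simp

theorem evM_dOne (x : PS) : evM (dOne ΔP.toLinearMap (1 : PS) x) = 0 := by
  have h := phi_Delta x
  rw [dOne_apply, map_sub, map_add, map_mul, map_mul, evM_ι_one, evM_two]
  have e1 : ΔP.toLinearMap x = ΔP x := rfl
  rw [e1, h.1, h.2]
  ext i j
  fin_cases i <;> fin_cases j <;> simp

/-- the evaluation kills every image of the differential -/
theorem evM_dCob (w : TensorAlgebra (ZMod 3) PS) :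
    evM (dCob ΔP.toLinearMap (1 : PS) w) = 0 := by
  induction w using TensorAlgebra.induction with
  | algebraMap r => simp
  | ι x => rw [dCob_ι, evM_dOne]
  | mul a b ha hb => rw [dCob_mul, map_add, map_mul, map_mul, ha, hb]; simp
  | add a b ha hb => rw [map_add, map_add, ha, hb, add_zero]

theorem evM_hP_zero : evM (hP 0) = !![0, 1; 0, 0] := by
  rw [hP, let1, evM_ι, phi_xi_pow, phi_xi_pow]
  simp

theorem evM_bP_zero : evM (bP 0) = 1 := by
  simp only [bP, let1, map_add, map_mul, evM_ι, phi_xi_pow]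
  ext i j
  fin_cases i <;> fin_cases j <;> simp [Matrix.mul_apply, Fin.sum_univ_two]

/-- `b_0^n` is not in the image of the differential (`n` arbitrary) -/
theorem bP_zero_pow_not_image (n : ℕ) (w : TensorAlgebra (ZMod 3) PS) :
    dCob ΔP.toLinearMap (1 : PS) w ≠ bP 0 ^ n := by
  intro h
  have h1 := evM_dCob w
  rw [h, map_pow, evM_bP_zero, one_pow] at h1
  have h2 := congrFun (congrFun h1 0) 0
  simp at h2

/-- `h_0 b_0^n` is not in the image of the differential (`n` arbitrary) -/
theorem hP_zero_bP_zero_pow_not_image (n : ℕ) (w : TensorAlgebra (ZMod 3) PS) :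
    dCob ΔP.toLinearMap (1 : PS) w ≠ hP 0 * bP 0 ^ n := by
  intro h
  have h1 := evM_dCob w
  rw [h, map_mul, map_pow, evM_bP_zero, one_pow, mul_one, evM_hP_zero] at h1
  have h2 := congrFun (congrFun h1 0) 1
  simp at h2

theorem not_isCob_bP_zero_pow (s n : ℕ) : ¬ IsCob ΔP.toLinearMap (1 : PS) s (bP 0 ^ n) := by
  rintro ⟨w, -, hw⟩
  exact bP_zero_pow_not_image n w hw

theorem not_isCob_hP_bP_pow (s n : ℕ) : ¬ IsCob ΔP.toLinearMap (1 : PS) s (hP 0 * bP 0 ^ n) := by
  rintro ⟨w, -, hw⟩
  exact hP_zero_bP_zero_pow_not_image n w hw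

/-- `b_0^3` is not a coboundary -/
theorem not_isCob_b0_cube : ¬ IsCob ΔP.toLinearMap (1 : PS) 5 (bP 0 * bP 0 * bP 0) := by
  have h := not_isCob_bP_zero_pow 5 3
  rwa [pow_succ, pow_succ, pow_one] at h

/-- `h_0 b_0^3` is not a coboundary -/
theorem not_isCob_h0_b0_cube :
    ¬ IsCob ΔP.toLinearMap (1 : PS) 6 (hP 0 * bP 0 * bP 0 * bP 0) := by
  have h := not_isCob_hP_bP_pow 6 3
  rwa [pow_succ, pow_succ, pow_one, ← mul_assoc, ← mul_assoc] at h

end Vale.Agent.P236.H361
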